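import Vale.Agent.P249.Reduce

namespace Vale.Agent.Results.P249.Subpoly

open MeasureTheory
open scoped ENNReal

theorem result.{u} (p : ℝ≥0∞) [Fact (1 ≤ p)] (hp1 : 1 < p) (hp : p ≠ ∞) (D : ℝ) (hD : 1 < D)
    (θ : ℝ) (hθ : 0 < θ) :
    ∃ n₀ : ℕ, ∀ n : ℕ, n₀ ≤ n → ∃ d : ℕ, (d : ℝ) ≤ (n : ℝ) ^ θ ∧
      ∀ (Ω : Type u) [MeasurableSpace Ω] (μ : Measure Ω) (X : Finset (Lp ℝ p μ)), X.card = n →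
        ∃ (f : Lp ℝ p μ → PiLp p (fun _ : Fin d => ℝ)) (s : ℝ), 0 < s ∧
          ∀ x ∈ X, ∀ y ∈ X, s * ‖x - y‖ ≤ ‖f x - f y‖ ∧ ‖f x - f y‖ ≤ D * s * ‖x - y‖ :=
  Vale.Agent.P249.general p hp1 hp D hD θ hθ

end Vale.Agent.Results.P249.Subpoly
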